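import Vale.Agent.P227.H880.Defs
import Vale.Agent.P227.H880.Lp

open MeasureTheory
open scoped ENNReal Pointwise

namespace Vale.Agent.Results.P227.EvenLogConcaveMeasures

open Vale.Agent.P227

/-- The logarithmic Brunn-Minkowski inequality for Lebesgue measure and, for every even
log-concave measure `dens φ`, the logarithmic and all `L_p` Brunn-Minkowski inequalities (`p > 0`),
the dimensional Brunn-Minkowski inequality, the (B)-property, and its multi-parameter form. -/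
theorem result (n : ℕ) (hn : 0 < n) (K L : Set (EuclideanSpace ℝ (Fin n)))
    (hK : SymConvexBody K) (hL : SymConvexBody L) (t : ℝ) (h0 : 0 ≤ t) (h1 : t ≤ 1) :
    volume K ^ (1 - t) * volume L ^ t ≤ volume (logComb t K L) ∧
    ∀ φ : EuclideanSpace ℝ (Fin n) → ℝ, EvenLogConcave φ →
      dens φ K ^ (1 - t) * dens φ L ^ t ≤ dens φ (logComb t K L) ∧
      (∀ p : ℝ, 0 < p →
        ENNReal.ofReal (1 - t) * dens φ K ^ (p / n) + ENNReal.ofReal t * dens φ L ^ (p / n) ≤
          dens φ (lpComb p t K L) ^ (p / n)) ∧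
      ENNReal.ofReal (1 - t) * dens φ K ^ (1 / n : ℝ) +
          ENNReal.ofReal t * dens φ L ^ (1 / n : ℝ) ≤
        dens φ ((1 - t) • K + t • L) ^ (1 / n : ℝ) ∧
      (∀ a b : ℝ, dens φ (Real.exp a • K) ^ (1 - t) * dens φ (Real.exp b • K) ^ t ≤
        dens φ (Real.exp ((1 - t) * a + t * b) • K)) ∧
      (∀ (J : ℕ) (ν : Fin J → EuclideanSpace ℝ (Fin n)) (a b : Fin J → ℝ),
        dens φ (K ∩ slabs ν a) ^ (1 - t) * dens φ (K ∩ slabs ν b) ^ t ≤
          dens φ (K ∩ slabs ν (fun j => (1 - t) * a j + t * b j))) :=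
  ⟨H880.q1_enn hn hK hL h0 h1, fun _ hφ =>
    ⟨H880.log_bm_dens hn hφ hK hL h0 h1, fun _ hp => H880.lp_bm_dens hn hφ hK hL h0 h1 hp,
      H880.dim_bm_dens hn hφ hK hL h0 h1, fun a b => H880.b_dens hn hφ hK h0 h1 a b,
      fun _ ν a b => H880.slab_dens hn hφ hK h0 h1 ν a b⟩⟩

end Vale.Agent.Results.P227.EvenLogConcaveMeasures
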