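import Vale.Agent.P227.H368.Defs
import Vale.Agent.P227.H368.Fun
import Vale.Agent.P227.H368.LpM

open MeasureTheory
open scoped ENNReal Pointwise

namespace Vale.Agent.Results.P227.LpMinkowskiUniqueness

open Vale.Agent.P227

/-- The logarithmic Brunn-Minkowski inequality (1), its functional form with all scaling
parameters (2), the logarithmic Minkowski inequality and the `L_p` Minkowski inequalities with
equality cases (3), and uniqueness in the even `L_p` Minkowski problem (4). -/
theorem result (n : ℕ) (hn : 0 < n) :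
    (∀ K L : Set (EuclideanSpace ℝ (Fin n)), SymConvexBody K → SymConvexBody L →
      ∀ t : ℝ, 0 ≤ t → t ≤ 1 →
        volume K ^ (1 - t) * volume L ^ t ≤ volume (logComb t K L)) ∧
    FunctionalForm n ∧ MinkowskiInequalities n ∧ LpUniqueness n :=
  ⟨fun _ _ hK hL _ h0 h1 => H880.q1_enn hn hK hL h0 h1,
    fun _ _ hf a b _ h0 h1 => ⟨fun _ _ hK hL => H368.log_bm_fun hn hf hK hL h0 h1 a b,
      H368.log_bm_space hn hf h0 h1 a b⟩,
    fun _ _ hK hL => ⟨H368.log_minkowski_cone hn hK hL, fun _ hp => H368.lp_minkowski hn hK hL hp⟩,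
    fun _ _ hK hL _ hp hpn h => H368.lp_unique hn hK hL hp hpn h⟩

end Vale.Agent.Results.P227.LpMinkowskiUniqueness
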